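import Vale.Agent.P231Z.HU.Ori
import Vale.Agent.P231.CoZ.PF

/-!
# P231, Cayley case: the unit tangent bundle as an oriented sphere bundle over `M`
-/

set_option maxSynthPendingDepth 3
set_option linter.unusedSectionVars false
set_option linter.unusedVariables false

open Bundle Manifold Set Filter Module
open scoped ContDiff Manifold Topology

namespace Vale.Agent.P231Z.HU

noncomputable section

open Vale.Agent.P234 Vale.Agent.P231 Vale.Agent.P231.Fm Vale.Agent.P231.W Vale.Agent.P231.WR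
open Vale.Agent.P231.S2II (Eul bas mt mt_apply sm_mt det_iso)

variable {E : Type*} [NormedAddCommGroup E] [NormedSpace ℝ E]
  {M : Type*} [MetricSpace M] [ChartedSpace E M]
  [RiemannianBundle (fun x : M => TangentSpace 𝓘(ℝ, E) x)]
  [FiniteDimensional ℝ E] [IsManifold 𝓘(ℝ, E) ∞ M]
  [IsContMDiffRiemannianBundle 𝓘(ℝ, E) ∞ E (fun x : M => TangentSpace 𝓘(ℝ, E) x)]
  [CompactSpace M] [ConnectedSpace M] [IsRiemannianManifold 𝓘(ℝ, E) M]
  {N : ℕ}

/-- orthonormal families of unit vectors -/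
structure IsON (W : Fin (N + 1) → UT E M) : Prop where
  foot_eq : ∀ i, foot (W i) = foot (W 0)
  ip_eq : ∀ i j, ip (foot (W 0)) (vec' (W i)) (vec' (W j)) = if i = j then 1 else 0

variable (E M) in
/-- the orthonormal frames -/
def OF (N : ℕ) : Type _ := {W : Fin (N + 1) → UT E M // IsON W}

variable (E M) in
/-- the diffeology of the space of frames -/
def dOF (N : ℕ) : Dif (OF E M N) where
  At u x := ∀ i, (dUT E M).At (fun y => (u y).1 i) x
  open' h := eventually_all.2 fun i => (dUT E M).open' (h i)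
  congr h hv := fun i => (dUT E M).congr (h i)
    (hv.mono fun y hy => congrFun (congrArg Subtype.val hy) i)
  comp h hg := fun i => (dUT E M).comp (h i) hg

/-- the base point of a frame -/
def oq (f : OF E M N) : M := foot (f.1 0)

theorem map_oq : (dOF E M N).Map (dM E M) oq := fun h => map_foot (h 0)

/-- the combination of the vectors of a frame -/
def ob (f : OF E M N) (y : Eul (N + 1)) : E := ∑ i, y i • vec' (f.1 i)

theorem ip_of (f : OF E M N) (i j : Fin (N + 1)) :
    ip (oq f) (vec' (f.1 i)) (vec' (f.1 j)) = if i = j then 1 else 0 := f.2.ip_eq i j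

theorem ip_ob (f : OF E M N) (i : Fin (N + 1)) (y : Eul (N + 1)) :
    ip (oq f) (vec' (f.1 i)) (ob f y) = y i := by
  rw [ob, ip_sum_right]
  simp only [ip_smul_right', ip_of]
  simp

theorem ip_ob_ob (f : OF E M N) (y z : Eul (N + 1)) :
    ip (oq f) (ob f y) (ob f z) = inner ℝ y z := by
  conv_lhs => rw [ob, ip_sum_left]
  simp only [WR.ip_smul_left', ip_ob]
  rw [EuclideanSpace.inner_eq_star_dotProduct]
  simp [dotProduct, mul_comm]

theorem nm_ob (f : OF E M N) {y : Eul (N + 1)} (hy : ‖y‖ = 1) : nm (oq f) (ob f y) = 1 := by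
  refine nm_eq_one ?_
  rw [ip_ob_ob, real_inner_self_eq_norm_sq, hy, one_pow]

/-- the coordinates of a vector -/
def oc (f : OF E M N) (a : E) : Eul (N + 1) :=
  WithLp.toLp 2 fun i => ip (oq f) (vec' (f.1 i)) a

theorem oc_apply (f : OF E M N) (a : E) (i : Fin (N + 1)) :
    oc f a i = ip (oq f) (vec' (f.1 i)) a := rfl

theorem oc_ob (f : OF E M N) (y : Eul (N + 1)) : oc f (ob f y) = y := by
  ext i
  rw [oc_apply, ip_ob]

theorem ob_oc (hN : finrank ℝ E = N + 1) (f : OF E M N) (a : E) : ob f (oc f a) = a := by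
  have h1 : LinearIndependent ℝ (fun i => vec' (f.1 i)) := by
    refine Fintype.linearIndependent_iff.2 fun y hy i => ?_
    have h2 := ip_ob f i (WithLp.toLp 2 y)
    have h3 : ob f (WithLp.toLp 2 y) = (0 : ℝ) • (0 : E) := hy.trans (zero_smul ℝ _).symm
    rw [h3, ip_smul_right', zero_mul] at h2
    exact h2.symm
  have h2 := h1.span_eq_top_of_card_eq_finrank' (by rw [Fintype.card_fin, hN])
  have h3 : a ∈ Submodule.span ℝ (Set.range fun i => vec' (f.1 i)) := by
    rw [h2]
    exact Submodule.mem_top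
  obtain ⟨y, hy⟩ := (Submodule.mem_span_range_iff_exists_fun ℝ).1 h3
  have h4 : ob f (WithLp.toLp 2 y) = a := hy
  rw [← h4, oc_ob]

theorem par_of (hN : finrank ℝ E = N + 1) (f : OF E M N) :
    Par (oq f) (fun j => vec' (f.1 j)) := fun a => ob_oc hN f a

open Classical in
/-- evaluation of the frames -/
def oev (z : OF E M N × Eul (N + 1)) : UT E M :=
  if h : ‖z.2‖ = 1 then W.mk (oq z.1) (ob z.1 z.2) (nm_ob z.1 h) else z.1.1 0

theorem oev_of (f : OF E M N) {y : Eul (N + 1)} (h : ‖y‖ = 1) :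
    oev (f, y) = W.mk (oq f) (ob f y) (nm_ob f h) := dif_pos h

theorem foot_oev (z : OF E M N × Eul (N + 1)) : foot (oev z) = oq z.1 := by
  by_cases h : ‖z.2‖ = 1
  · have h1 : oev z = W.mk (oq z.1) (ob z.1 z.2) (nm_ob z.1 h) := dif_pos h
    rw [h1]
    rfl
  · rw [oev, dif_neg h]
    rfl

theorem map_oev : (Co.SB (dOF E M N) (Eul (N + 1))).Map (dUT E M) oev :=
  fun {E'} _ _ _ {u x} h => by
    refine at_sum (u := fun s => (u s).1.1 0) (W := fun i s => (u s).1.1 i)
      (c := fun i s => (u s).2 i) (h.1.1 0) (fun i => h.1.1 i)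
      (fun i => Eventually.of_forall fun s => (u s).1.2.foot_eq i) (fun i => ?_) ?_
    · have h1 : Sm (fun s => (u s).2) x := h.1.2
      exact Sm.comp (f := fun z : Eul (N + 1) => z i) (g := fun s => (u s).2)
        (Sm.of_contDiff (EuclideanSpace.proj (𝕜 := ℝ) i).contDiff _) h1
    · filter_upwards [h.2] with s hs
      have hs' : ‖(u s).2‖ = 1 := hs
      have h2 : oev (u s) = W.mk (oq (u s).1) (ob (u s).1 (u s).2) (nm_ob _ hs') := dif_pos hs'
      change foot (oev (u s)) = _ ∧ vec' (oev (u s)) = _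
      rw [h2]
      exact ⟨rfl, rfl⟩

/-- the transition matrix of two frames -/
def ot (f f' : OF E M N) (i j : Fin (N + 1)) : ℝ := ip (oq f) (vec' (f.1 i)) (vec' (f'.1 j))

theorem sm_ot {E' : Type} [NormedAddCommGroup E'] [NormedSpace ℝ E']
    [FiniteDimensional ℝ E'] {f f' : E' → OF E M N} {x : E'} (hf : (dOF E M N).At f x)
    (hf' : (dOF E M N).At f' x) (hff : ∀ᶠ s in 𝓝 x, oq (f s) = oq (f' s)) (i j : Fin (N + 1)) :
    Sm (fun s => ot (f s) (f' s) i j) x := by
  refine sm_ip' (u := fun s => (f s).1 0) (hf i) (hf' j)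
    (Eventually.of_forall fun s => (f s).2.foot_eq i) ?_
  filter_upwards [hff] with s hs
  exact ((f' s).2.foot_eq j).trans hs.symm

theorem ob_ot (hN : finrank ℝ E = N + 1) (f f' : OF E M N) (y : Eul (N + 1)) :
    ob f' y = ob f (mt (ot f f') y) := by
  rw [← ob_oc hN f (ob f' y)]
  refine congrArg (ob f) ?_
  ext i
  rw [mt_apply, oc_apply, ob, ip_sum_right]
  refine Finset.sum_congr rfl fun j _ => ?_
  rw [ip_smul_right', ot, mul_comm]

theorem norm_ot (hN : finrank ℝ E = N + 1) {f f' : OF E M N} (h1 : oq f = oq f')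
    (y : Eul (N + 1)) : ‖mt (ot f f') y‖ = ‖y‖ := by
  have h3 : ‖mt (ot f f') y‖ ^ 2 = ‖y‖ ^ 2 := by
    rw [← real_inner_self_eq_norm_sq, ← real_inner_self_eq_norm_sq, ← ip_ob_ob f,
      ← ob_ot hN f f', h1, ip_ob_ob]
  exact (sq_eq_sq₀ (norm_nonneg _) (norm_nonneg _)).1 h3

/-- the sign of a frame -/
def sg (P : M → Fin (N + 1) → E) (f : OF E M N) : ℝ :=
  gd (oq f) (P (oq f)) (fun j => vec' (f.1 j))

theorem sg_ot (hN : finrank ℝ E = N + 1) (P : M → Fin (N + 1) → E) {f f' : OF E M N}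
    (h1 : oq f = oq f') : sg P f' = sg P f * Matrix.det (Matrix.of (ot f f')) := by
  rw [sg, ← h1]
  exact gd_mul (par_of hN f) _ _

/-- the frame with the opposite first vector -/
def ofl (f : OF E M N) : OF E M N :=
  ⟨fun i => if i = 0 then ng (f.1 i) else f.1 i, by
    have h0 : ∀ i, foot (if i = 0 then ng (f.1 i) else f.1 i) = foot (f.1 0) := fun i => by
      split_ifs
      · exact f.2.foot_eq i
      · exact f.2.foot_eq i
    have h1 : ∀ i, vec' (if i = 0 then ng (f.1 i) else f.1 i) =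
        (if i = 0 then (-1 : ℝ) else 1) • vec' (f.1 i) := fun i => by
      split_ifs
      · rw [vec'_ng, neg_one_smul]
      · rw [one_smul]
    refine ⟨fun i => (h0 i).trans (h0 0).symm, fun i j => ?_⟩
    rw [h0 0, h1, h1, WR.ip_smul_left', ip_smul_right', f.2.ip_eq]
    by_cases h : i = j
    · subst h
      split_ifs <;> simp
    · rw [if_neg h, mul_zero, mul_zero]⟩

theorem oq_ofl (f : OF E M N) : oq (ofl f) = oq f := by
  change foot (if (0 : Fin (N + 1)) = 0 then ng (f.1 0) else f.1 0) = _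
  rw [if_pos rfl]
  rfl

theorem map_ofl : (dOF E M N).Map (dOF E M N) ofl := fun {E'} _ _ _ {u x} h i => by
  change (dUT E M).At (fun y => if i = 0 then ng ((u y).1 i) else (u y).1 i) x
  by_cases hi : i = 0
  · simp only [if_pos hi]
    exact map_ng (h i)
  · simp only [if_neg hi]
    exact h i

theorem sg_ofl (hN : finrank ℝ E = N + 1) (P : M → Fin (N + 1) → E) (f : OF E M N) :
    sg P (ofl f) = -sg P f := by
  rw [sg_ot hN P (oq_ofl f).symm]
  have h1 : Matrix.of (ot f (ofl f)) =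
      Matrix.diagonal (fun i : Fin (N + 1) => if i = 0 then (-1 : ℝ) else 1) := by
    ext i j
    have h2 : vec' ((ofl f).1 j) = (if j = 0 then (-1 : ℝ) else 1) • vec' (f.1 j) := by
      change vec' (if j = 0 then ng (f.1 j) else f.1 j) = _
      split_ifs
      · rw [vec'_ng, neg_one_smul]
      · rw [one_smul]
    rw [Matrix.of_apply, ot, h2, ip_smul_right', ip_of, Matrix.diagonal_apply]
    by_cases h : i = j
    · rw [if_pos h, if_pos h, mul_one, h]
    · rw [if_neg h, if_neg h, mul_zero]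
  rw [h1, Matrix.det_diagonal, Fin.prod_univ_succ, if_pos rfl]
  have h2 : ∀ i : Fin N, (if (i.succ : Fin (N + 1)) = 0 then (-1 : ℝ) else 1) = 1 := fun i =>
    if_neg (Fin.succ_ne_zero i)
  simp only [h2]
  rw [Finset.prod_const_one, mul_one, mul_neg_one]

/-- local frames along a plot, with a constant sign -/
theorem exists_lift (hN : finrank ℝ E = N + 1) {P : M → Fin (N + 1) → E} (hP : Ori P)
    {E' : Type} [NormedAddCommGroup E'] [NormedSpace ℝ E'] [FiniteDimensional ℝ E']
    {u : E' → M} {x : E'} (hu : (dM E M).At u x) :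
    ∃ f : E' → OF E M N, (dOF E M N).At f x ∧ oq ∘ f =ᶠ[𝓝 x] u ∧
      ∀ᶠ s in 𝓝 x, 0 < sg P (f s) * sg P (f x) := by
  classical
  obtain ⟨g, hg⟩ := exists_local hN (u x)
  have hu' : ∀ᶠ s in 𝓝 x, ContMDiffAt 𝓘(ℝ, E') 𝓘(ℝ, E) ∞ u s := hu
  have hc : ContinuousAt u x := hu'.self_of_nhds.continuousAt
  have hx : u x ∈ (chartAt E (u x)).source := mem_chart_source E (u x)
  have hV : ∀ᶠ y in 𝓝 (u x), y ∈ (chartAt E (u x)).source :=
    (chartAt E (u x)).open_source.mem_nhds hx
  have hn : ∀ y ∈ (chartAt E (u x)).source, ∀ i, nm (E := E) y (g i y : E) = 1 := fun y hy i =>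
    nm_eq_one (((hg y hy).2.2 i i).trans (if_pos rfl))
  let φ : ∀ y ∈ (chartAt E (u x)).source, OF E M N := fun y hy =>
    ⟨fun i => W.mk y (g i y : E) (hn y hy i), fun i => rfl, (hg y hy).2.2⟩
  let f : E' → OF E M N := fun s =>
    if h : u s ∈ (chartAt E (u x)).source then φ (u s) h else φ (u x) hx
  have hf : ∀ s, u s ∈ (chartAt E (u x)).source → oq (f s) = u s ∧
      ∀ i, foot ((f s).1 i) = u s ∧ vec' ((f s).1 i) = (g i (u s) : E) := by
    intro s hs
    have h1 : f s = φ (u s) hs := dif_pos hs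
    rw [h1]
    exact ⟨rfl, fun i => ⟨rfl, rfl⟩⟩
  have hsg : ∀ s, u s ∈ (chartAt E (u x)).source →
      sg P (f s) = gd (u s) (P (u s)) (fun j => (g j (u s) : E)) := by
    intro s hs
    have h1 : f s = φ (u s) hs := dif_pos hs
    rw [h1]
    rfl
  have hs := hc.eventually hV
  refine ⟨f, fun i => ?_, hs.mono fun s h => (hf s h).1, ?_⟩
  · rw [at_iff]
    filter_upwards [hu', hs, eventually_eventually_nhds.2 hs] with s h1 h2 h3
    have h4 : H775.SmV (E := E) u (fun z => g i (u z)) s :=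
      ContMDiffAt.comp s ((hg _ h2).1 i) h1
    refine ContMDiffAt.congr_of_eventuallyEq h4 ?_
    filter_upwards [h3] with z hz
    exact tb_congr ((hf z hz).2 i).1 ((hf z hz).2 i).2
  · have h1 := hc.eventually (hP.loc (u x) g (hV.mono fun y hy => ⟨(hg y hy).1, (hg y hy).2.1⟩))
    filter_upwards [hs, h1] with s h2 h3
    rw [hsg s h2, hsg x hx]
    exact h3

variable (E M) in
/-- the space of oriented frames -/
abbrev dOP (P : M → Fin (N + 1) → E) : Dif (OF E M N) := (dOF E M N).on {f | 0 < sg P f}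

/-- **the unit tangent bundle is an oriented sphere bundle** -/
theorem bun_U (hN : finrank ℝ E = N + 1) {P : M → Fin (N + 1) → E} (hP : Ori P) :
    Co.Bun (dM E M) (dUT E M) (dOP E M P) (Eul (N + 1)) foot oq oev where
  hπ := map_foot
  hq :=
    { map := fun h => map_oq h.1
      lift := fun {E'} _ _ _ {u x} hu => by
        obtain ⟨f, hf, hfu, hs⟩ := exists_lift hN hP hu
        have h0 : sg P (f x) ≠ 0 := gd_ne (hP.li _) (par_of hN (f x))
        rcases lt_or_gt_of_ne h0 with h | h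
        · refine ⟨fun s => ofl (f s), ⟨map_ofl hf, ?_⟩,
            hfu.mono fun s h1 => (oq_ofl (f s)).trans h1⟩
          filter_upwards [hs] with s h1
          rw [sg_ofl hN, neg_pos]
          exact neg_of_mul_pos_left h1 h.le
        · refine ⟨f, ⟨hf, ?_⟩, hfu⟩
          filter_upwards [hs] with s h1
          exact pos_of_mul_pos_left h1 h.le }
  hev := fun {E'} _ _ _ {u x} h => map_oev ⟨⟨h.1.1.1, h.1.2⟩, h.2⟩
  comm := fun {E'} _ _ _ {u x} h => foot_oev (u x)
  trans := fun {E'} _ _ _ {f f' x} hf hf' hff => by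
    refine ⟨fun s => mt (ot (f s) (f' s)), sm_mt fun i j => sm_ot hf.1 hf'.1 hff i j, ?_⟩
    filter_upwards [hff, hf.2, hf'.2] with s h1 h2 h3
    have h4 : oq (f s) = oq (f' s) := h1
    have h5 := norm_ot hN h4
    refine ⟨h5, ?_, fun y hy => ?_⟩
    · have h6 := sg_ot hN P h4
      have h7 := det_iso h5
      rw [← CoZ.det_mt] at h6
      have h2' : 0 < sg P (f s) := h2
      have h3' : 0 < sg P (f' s) := h3
      rcases abs_eq (zero_le_one' ℝ) |>.1 h7 with h8 | h8
      · exact h8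
      · rw [h8, mul_neg_one] at h6
        linarith
    · rw [oev_of _ hy, oev_of _ ((h5 y).trans hy)]
      exact mk_congr h4.symm (ob_ot hN _ _ y)
  lift := fun {E'} _ _ _ {s f x} hs hf hsf => by
    have h0 : ∀ᶠ y in 𝓝 x, foot (s y) = oq (f y) := hsf.mono fun y hy => hy.symm
    refine ⟨fun y => oc (f y) (vec' (s y)), ?_, ?_⟩
    · have h1 : ∀ i, Sm (fun y => oc (f y) (vec' (s y)) i) x := fun i =>
        sm_ip' (u := fun y => (f y).1 0) (hf.1 i) hs
          (Eventually.of_forall fun y => (f y).2.foot_eq i) h0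
      filter_upwards [eventually_all.2 h1] with y hy
      exact contDiffAt_euclidean.2 hy
    · filter_upwards [h0] with y hy
      have h3 := ob_oc hN (f y) (vec' (s y))
      have h4 : ‖oc (f y) (vec' (s y))‖ = 1 := by
        have h5 : ‖oc (f y) (vec' (s y))‖ ^ 2 = 1 := by
          rw [← real_inner_self_eq_norm_sq, ← ip_ob_ob (f y), h3, ← hy]
          exact ip_vec' _
        exact (sq_eq_sq₀ (norm_nonneg _) zero_le_one).1 (h5.trans (one_pow 2).symm)
      refine ⟨h4, ?_⟩
      rw [oev_of _ h4]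
      exact (mk_congr hy.symm h3).trans (mk_eta (s y))
  inj := fun {E'} _ _ _ {f x} hf ξ ξ' h1 h2 h3 => by
    rw [oev_of _ h1, oev_of _ h2] at h3
    have h5 : ob (f x) ξ = ob (f x) ξ' := congrArg vec' h3
    rw [← oc_ob (f x) ξ, h5, oc_ob]

end

end Vale.Agent.P231Z.HU
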