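import Vale.Agent.P231Z.HU.Base
import Vale.Agent.P231Z.HU.Bun
import Vale.Agent.P231Z.Ang.Main

/-!
# P231, Cayley case: the cohomology of the unit tangent bundle
-/

set_option maxSynthPendingDepth 3
set_option linter.unusedSectionVars false
set_option linter.unusedVariables false

open Bundle Manifold Set Filter Module MeasureTheory
open scoped ContDiff Manifold Topology

namespace Vale.Agent.P231Z.HU

open Vale.Agent.P234 Vale.Agent.P231 Vale.Agent.P231.Fm Vale.Agent.P231.W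
open Vale.Agent.P231.S2II (Eul bas)

variable {E : Type*} [NormedAddCommGroup E] [NormedSpace ℝ E]
  {M : Type*} [MetricSpace M] [ChartedSpace E M]
  [RiemannianBundle (fun x : M => TangentSpace 𝓘(ℝ, E) x)]
  {e : ∀ x : M, TangentSpace 𝓘(ℝ, E) x → M}
  [FiniteDimensional ℝ E] [IsManifold 𝓘(ℝ, E) ∞ M]
  [IsContMDiffRiemannianBundle 𝓘(ℝ, E) ∞ E (fun x : M => TangentSpace 𝓘(ℝ, E) x)]
  [CompactSpace M] [ConnectedSpace M] [IsRiemannianManifold 𝓘(ℝ, E) M]
  (F : Facts e) {D : ℝ} (hD : 0 < D) (hB : InjGE e D) (hdiam : ∀ p q : M, dist p q ≤ D)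
  (hl : ∀ x y : M, dist x y = D → finrank ℝ (H775.Pl e D x y) = 2 * 3 + 2)
  (hN : finrank ℝ E = 15 + 1)

include F hD hB hdiam hl hN in
/-- **the cohomology of the unit tangent bundle** -/
theorem hU : Alg.HU (dUT E M) := by
  obtain ⟨p⟩ : Nonempty M := inferInstance
  obtain ⟨o, hJ⟩ := FE.exists_line F hD hB hdiam (n := 3) hl (by omega) p
  obtain ⟨ρ, r₀, hρ⟩ := WQ.exists_rho (E := E) (e := e) (p := p) hD
  obtain ⟨P, hP⟩ := exists_ori F hD hB hdiam (fun x y h => by rw [hl x y h]; omega) hN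
  obtain ⟨ψ, ε, hψ⟩ := Ang.exists_ang_M (bun_U hN hP) (bas (15 + 1)) (by norm_num)
  obtain ⟨η, hη⟩ :=
    (FF_top F hD hB hdiam (n := 1) hl hN (by norm_num) hJ hρ one_ne_zero (by norm_num)).2
  exact formal (hM F hD hB hdiam hl hN hJ hρ one_ne_zero) hψ hη

end Vale.Agent.P231Z.HU
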