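import Vale.Agent.P231Z.HU.Ori
import Vale.Agent.P231Z.N2.OriDefs

/-!
# P231, Cayley case: the orientation as a predicate on the bases of the tangent spaces
-/

set_option maxSynthPendingDepth 3
set_option linter.unusedSectionVars false
set_option linter.unusedVariables false

open Bundle Manifold Set Filter Module
open scoped ContDiff Manifold Topology

namespace Vale.Agent.P231Z.HU

open Vale.Agent.P234 Vale.Agent.P231 Vale.Agent.P231.W Vale.Agent.P231.WR

variable {E : Type*} [NormedAddCommGroup E] [NormedSpace ℝ E]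
  {M : Type*} [MetricSpace M] [ChartedSpace E M]
  [RiemannianBundle (fun x : M => TangentSpace 𝓘(ℝ, E) x)]
  {e : ∀ x : M, TangentSpace 𝓘(ℝ, E) x → M}
  [FiniteDimensional ℝ E] [IsManifold 𝓘(ℝ, E) ∞ M]
  [IsContMDiffRiemannianBundle 𝓘(ℝ, E) ∞ E (fun x : M => TangentSpace 𝓘(ℝ, E) x)]
  [CompactSpace M] [ConnectedSpace M] [IsRiemannianManifold 𝓘(ℝ, E) M]

theorem li_of_gd {N : ℕ} {x : M} {P c : Fin N → E} (h : gd x P c ≠ 0) :
    LinearIndependent ℝ c := by
  refine Fintype.linearIndependent_iff.2 fun v hv => congrFun ?_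
  refine Matrix.eq_zero_of_mulVec_eq_zero h (funext fun i => ?_)
  have h1 : ip x (P i) (∑ j, v j • c j) = ip x (P i) ((0 : ℝ) • (0 : E)) := by
    rw [hv, zero_smul]
  rw [ip_smul_right', zero_mul, ip_sum_right] at h1
  change ∑ j, ip x (P i) (c j) * v j = 0
  refine Eq.trans (Finset.sum_congr rfl fun j _ => ?_) h1
  rw [ip_smul_right', mul_comm]

theorem Ori.oriM {N : ℕ} (hN : finrank ℝ E = N) {P : M → Fin N → E} (hP : Ori P) :
    N2.OriM E M N (fun x c => 0 < gd x (P x) c) where
  ex x := by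
    obtain ⟨g, hg⟩ := exists_local hN x
    have h1 := (hg x (mem_chart_source E x)).2.1
    refine ⟨P x, ?_⟩
    rw [gd_mul h1]
    exact (mul_self_pos.2 (gd_ne (hP.li x) h1)).trans_eq (congrArg _ (gd_comm x _ _))
  li x c h := li_of_gd h.ne'
  det x c A h1 h2 := by
    have h3 := gd_lin x (P x) c A.transpose
    rw [Matrix.det_transpose] at h3
    have h4 : 0 < gd x (P x) c * A.det := h2.trans_eq h3
    exact pos_of_mul_pos_right h4 h1.le
  loc {E'} _ _ _ {f c x} hf hc h := by
    filter_upwards [hP.plot hN hf (c := fun i s => c s i) hc (li_of_gd h.ne')] with s hs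
    exact pos_of_mul_pos_left hs h.le

/-- **the manifold is orientable** -/
theorem exists_oriM (F : Facts e) {D : ℝ} (hD : 0 < D) (hB : InjGE e D)
    (hdiam : ∀ p q : M, dist p q ≤ D)
    (hP : ∀ x y : M, dist x y = D → 2 ≤ finrank ℝ (H775.Pl e D x y)) {N : ℕ}
    (hN : finrank ℝ E = N) : ∃ op, N2.OriM E M N op := by
  obtain ⟨P, h⟩ := exists_ori F hD hB hdiam hP hN
  exact ⟨_, h.oriM hN⟩

end Vale.Agent.P231Z.HU
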