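import Vale.Agent.P231Z.HU.Formal
import Vale.Agent.P231.L3.NotExact
import Vale.Agent.P231.Co.Top
import Vale.Agent.P231.CoZ.Dim

/-!
# P231, Cayley case: the cohomology of `M`
-/

set_option maxSynthPendingDepth 3
set_option linter.unusedSectionVars false
set_option linter.unusedVariables false

open Bundle Manifold Set Filter Module MeasureTheory
open scoped ContDiff Manifold Topology ENNReal Real

namespace Vale.Agent.P231Z.HU

noncomputable section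

open Vale.Agent.P234 Vale.Agent.P231 Vale.Agent.P231.Fm Vale.Agent.P231.W Vale.Agent.P231.WR
  Vale.Agent.P231.H766 Vale.Agent.P231.WG Vale.Agent.P231.S2II Vale.Agent.P231.WQ
  Vale.Agent.P231.L3

variable {E : Type*} [NormedAddCommGroup E] [NormedSpace ℝ E]
  {M : Type*} [MetricSpace M] [ChartedSpace E M]
  [RiemannianBundle (fun x : M => TangentSpace 𝓘(ℝ, E) x)]
  {e : ∀ x : M, TangentSpace 𝓘(ℝ, E) x → M}
  [FiniteDimensional ℝ E] [IsManifold 𝓘(ℝ, E) ∞ M]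
  [IsContMDiffRiemannianBundle 𝓘(ℝ, E) ∞ E (fun x : M => TangentSpace 𝓘(ℝ, E) x)]
  [CompactSpace M] [ConnectedSpace M] [IsRiemannianManifold 𝓘(ℝ, E) M]
  (F : Facts e) {D : ℝ} (hD : 0 < D) (hB : InjGE e D) (hdiam : ∀ p q : M, dist p q ≤ D)
  {m n N : ℕ}
  (hl : ∀ x y : M, dist x y = D → finrank ℝ (H775.Pl e D x y) = 2 * m + 2)
  (hN : finrank ℝ E = N + 1) (hE : N + 1 = (2 * m + 2) * (n + 1))
  {p : M}
  {Pi : TangentSpace 𝓘(ℝ, E) p → TangentSpace 𝓘(ℝ, E) p →L[ℝ] TangentSpace 𝓘(ℝ, E) p}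
  {o : TangentSpace 𝓘(ℝ, E) p → Fm.Lam (TangentSpace 𝓘(ℝ, E) p)}
  {ρ : TangentSpace 𝓘(ℝ, E) p → ℝ} {r₀ : ℝ}
  (hJ : FE.LineP e D p m Pi o) (hρ : WE.Rho e D p ρ r₀) {a : ℝ} (ha : a ≠ 0)

section core

variable [MeasurableSpace M] [BorelSpace M]
  {Lm : Pr e D × ℝ → Pr e D} {Y : Pr e D → E} {ε₀ : ℝ} (hL : PushL F hD hB hdiam Lm Y ε₀)
  (g : Pr e D × ℝ → M) (hg : ((dPr e D).prod (Dif.lin ℝ)).Map (dM E M) g)
  (hg0 : ∀ b, g (b, 0) = foot b.v) (hg1 : ∀ b t, g (Lm (b, t), 1) = g (b, 1))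
  {R : ℝ} (X : Fr e p R) (v0 : UT E M) {r : Eu E → ℝ} {K : Set (Eu E)} (hr : Q.Cut r K)
  (hDR : D < R) (b : OrthonormalBasis (Fin (N + 1)) ℝ (Eu E))

/-- the value of the right-hand side is not zero -/
theorem q_ne (hm : 1 ≤ m) (hrad : ∀ y z : Eu E, (inner ℝ y z : ℝ) = 0 → fderiv ℝ r y z = 0) :
    (inst F hD hB hdiam hl hN hE hJ hρ ha hL g hg hg0 hg1 X v0 hr hDR b).I
      ((inst F hD hB hdiam hl hN hE hJ hρ ha hL g hg hg0 hg1 X v0 hr hDR b).B0 *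
        ((inst F hD hB hdiam hl hN hE hJ hρ ha hL g hg hg0 hg1 X v0 hr hDR b).Fx ^ (n + 1) *
          (inst F hD hB hdiam hl hN hE hJ hρ ha hL g hg hg0 hg1 X v0 hr hDR b).Fb ^ n)) ≠ 0 := by
  have h0 : finrank ℝ E = (2 * m + 2) * (n + 1) := hN.trans hE
  have hs : ∀ v : UT E M, ∃ q : Pr e D, q.v = v := fun v => by
    have : NeZero (2 * m + 1) := ⟨by omega⟩
    obtain ⟨W, hW⟩ := exists_isLF F hD hB hdiam (l := 2 * m + 1) hl v
    exact ⟨S2II.Fr.p0 (⟨(v, W), hW⟩ : S2II.Fr e D (2 * m + 1)), rfl⟩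
  have h1 := Q2.II_eq X v0 F hD hB hdiam hs (FE.FF_d F hD hB hdiam hl hJ hρ a)
    (FE.FF_deg F hD hB hdiam hl hJ hρ a) ⟨m + 1, by ring⟩ (by omega) (n := n + 1) (by omega) h0
    b.toBasis hr hrad hDR (FE.ang_PsiE hJ.os a) (WQ.cut_rho hρ) (WQ.closedBall_sub hρ)
    (fun x hx => FE.FF_ef F hD hB hdiam hl hJ hρ a hx)
    (fun y hy => FE.B0_cc F hD hB hdiam hl hJ hρ a (hD.trans hDR) X v0 hy)
  have h2 := (FE.q_le hJ.os ha hm (Nat.succ_pos n) h0 b hr).2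
  have h3 : (inst F hD hB hdiam hl hN hE hJ hρ ha hL g hg hg0 hg1 X v0 hr hDR b).I
      ((inst F hD hB hdiam hl hN hE hJ hρ ha hL g hg hg0 hg1 X v0 hr hDR b).B0 *
        ((inst F hD hB hdiam hl hN hE hJ hρ ha hL g hg hg0 hg1 X v0 hr hDR b).Fx ^ (n + 1) *
          (inst F hD hB hdiam hl hN hE hJ hρ ha hL g hg hg0 hg1 X v0 hr hDR b).Fb ^ n)) =
      Q.qv volume b.toBasis r (FE.PsiE m a p Pi o) (n + 1 - 1) *
        Q.qv volume b.toBasis r (FE.PsiE m a p Pi o) (n + 1 - 1) := h1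
  rw [h3]
  exact mul_ne_zero h2 h2

end core

include hN hE ha in
/-- the top power of the closed form of `M` is not exact on `M`, and it is exact on the unit
tangent bundle -/
theorem FF_top (hm : 1 ≤ m) :
    (∀ Γ : Form (dM E M), (FE.FF F hD hB hdiam hl hJ hρ a) ^ (n + 1) ≠ Γ.d) ∧
      ∃ η : Form (dUT E M),
        Form.pull foot map_foot ((FE.FF F hD hB hdiam hl hJ hρ a) ^ (n + 1)) = η.d := by
  borelize M
  have hnt : Nontrivial E := nontrivial_of_finrank_pos (R := ℝ) (by omega)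
  have : NeZero (2 * m + 1) := ⟨by omega⟩
  obtain ⟨v0, -⟩ := S2II.exists_foot (E := E) p
  obtain ⟨X⟩ := nonempty_fr F hD hB p (D + 1)
  obtain ⟨r, K, hr, hrad⟩ := exists_radCut (V := Eu E)
  have hDR : D < D + 1 := lt_add_one D
  let b : OrthonormalBasis (Fin (N + 1)) ℝ (Eu E) :=
    (stdOrthonormalBasis ℝ (Eu E)).reindex (finCongr (by
      rw [finrank_euclideanSpace, Fintype.card_fin, hN]))
  obtain ⟨T, Lm, Y, ε₀, hT, hw, hL, -, hrev, -⟩ :=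
    S2N.exists_all F hD hB hdiam (l := 2 * m + 1) hl
  obtain ⟨g, hg, hg0, hg1, h1⟩ := hL.exists_b1 (l := 2 * m + 1) hl
  refine ⟨sys_pow_ne (inst F hD hB hdiam hl hN hE hJ hρ ha hL g hg hg0 hg1 X v0 hr hDR b)
    (q_ne F hD hB hdiam hl hN hE hJ hρ ha hL g hg hg0 hg1 X v0 hr hDR b hm hrad), ?_⟩
  obtain ⟨η, hη⟩ :=
    (inst F hD hB hdiam hl hN hE hJ hρ ha hL g hg hg0 hg1 X v0 hr hDR b).exists_η0
  exact ⟨η, (map_pow (Form.pullA foot map_foot) _ (n + 1)).trans hη⟩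

end

section seven

open Vale.Agent.P234 Vale.Agent.P231 Vale.Agent.P231.Fm Vale.Agent.P231.W

variable {E : Type*} [NormedAddCommGroup E] [NormedSpace ℝ E]
  {M : Type*} [MetricSpace M] [ChartedSpace E M]
  [RiemannianBundle (fun x : M => TangentSpace 𝓘(ℝ, E) x)]
  {e : ∀ x : M, TangentSpace 𝓘(ℝ, E) x → M}
  [FiniteDimensional ℝ E] [IsManifold 𝓘(ℝ, E) ∞ M]
  [IsContMDiffRiemannianBundle 𝓘(ℝ, E) ∞ E (fun x : M => TangentSpace 𝓘(ℝ, E) x)]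
  [CompactSpace M] [ConnectedSpace M] [IsRiemannianManifold 𝓘(ℝ, E) M]
  (F : Facts e) {D : ℝ} (hD : 0 < D) (hB : InjGE e D) (hdiam : ∀ p q : M, dist p q ≤ D)
  (hl : ∀ x y : M, dist x y = D → finrank ℝ (H775.Pl e D x y) = 2 * 3 + 2)
  (hN : finrank ℝ E = 15 + 1)
  {p : M}
  {Pi : TangentSpace 𝓘(ℝ, E) p → TangentSpace 𝓘(ℝ, E) p →L[ℝ] TangentSpace 𝓘(ℝ, E) p}
  {o : TangentSpace 𝓘(ℝ, E) p → Fm.Lam (TangentSpace 𝓘(ℝ, E) p)}
  {ρ : TangentSpace 𝓘(ℝ, E) p → ℝ} {r₀ : ℝ}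
  (hJ : FE.LineP e D p 3 Pi o) (hρ : WE.Rho e D p ρ r₀) {a : ℝ} (ha : a ≠ 0)

include hN ha in
/-- **the cohomology of `M`** -/
theorem hM : HM (dM E M) (FE.FF F hD hB hdiam hl hJ hρ a) := by
  have hG := CoZ.gen_FF F hD hB hdiam hl hJ hρ ha (by omega)
  have hd := FE.FF_d F hD hB hdiam hl hJ hρ a
  have hdeg : Form.IsDeg 8 (FE.FF F hD hB hdiam hl hJ hρ a) :=
    S2II.isDeg_FF F hD hB hdiam hl hJ hρ a
  have hne := (FF_top F hD hB hdiam (n := 1) hl hN (by norm_num) hJ hρ ha (by norm_num)).1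
  have hnt : Nontrivial E := nontrivial_of_finrank_pos (R := ℝ) (by omega)
  obtain ⟨v0, -⟩ := S2II.exists_foot (E := E) p
  refine ⟨hd, hdeg, fun w hw h => hG.zero (by omega) h hw, fun k k0 k8 hk w hw h => ?_,
    fun w hw h => hG.top (by omega) (by omega) h hw, fun w hw h => ?_, hne, fun k hk w hw => ?_⟩
  · by_cases h15 : k < 15
    · exact hG.exact (by omega) (by omega) h hw
    · refine CoC.exact_of_cut F hD hB hdiam (l := 2 * 3 + 1) hl p (by omega) (by omega) h hw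
        (γ := 0) ?_
      rw [Form.d_zero]
      exact CoZ.cut_codim hJ v0 (k := k) (by omega) (by omega) (hw.pull _ _)
  · refine CoTop.top_M F hD hB hdiam (l := 2 * 3 + 1) hl (by omega) h (by rw [hN]; exact hw)
      (H584.pow_closed hd 2) (by rw [hN]; exact hdeg.pow 2) hne
  · exact WA.DimLE.isDeg_eq_zero (L.dimLE_bridge (WF.dimLE_M E M hN)) hk hw

end seven

end Vale.Agent.P231Z.HU
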