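import Vale.Agent.P231Z.Tube.Abs
import Vale.Agent.P231Z.Alg.Defs
import Vale.Agent.P231.Co.Low

/-!
# P231, Cayley case: the cohomology of a bundle of 15-spheres over a base with the cohomology of
the Cayley plane, from the Gysin sequence
-/

set_option linter.unusedSectionVars false
set_option linter.unusedVariables false

open MeasureTheory Set Module Filter Topology
open scoped ContDiff

namespace Vale.Agent.P231Z.HU

open Vale.Agent.P231 Vale.Agent.P231.Fm Vale.Agent.P231.Co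
open Vale.Agent.P231.Fm (Sm Dif Form Lam)
open Vale.Agent.P231.Fm.Form (IsDeg part)

/-- the cohomology of the base -/
structure HM {B : Type*} (DB : Dif B) (G : Form DB) : Prop where
  d : G.d = 0
  deg : IsDeg 8 G
  h0 : ∀ w : Form DB, IsDeg 0 w → w.d = 0 → ∃ r : ℝ, w = r • 1
  ex : ∀ k : ℕ, k ≠ 0 → k ≠ 8 → k < 16 → ∀ w : Form DB, IsDeg k w → w.d = 0 →
    ∃ κ : Form DB, w = κ.d
  h8 : ∀ w : Form DB, IsDeg 8 w → w.d = 0 → ∃ (r : ℝ) (κ : Form DB), w = r • G + κ.d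
  h16 : ∀ w : Form DB, IsDeg 16 w → w.d = 0 → ∃ (r : ℝ) (κ : Form DB), w = r • G ^ 2 + κ.d
  ne : ∀ κ : Form DB, G ^ 2 ≠ κ.d
  dim : ∀ k : ℕ, 16 < k → ∀ w : Form DB, IsDeg k w → w = 0

variable {B S Fr : Type*} {DB : Dif B} {DS : Dif S} {DF : Dif Fr}
variable {F : Type} [NormedAddCommGroup F] [InnerProductSpace ℝ F] [FiniteDimensional ℝ F]
variable {π : S → B} {q : Fr → B} {ev : Fr × F → S}
variable [MeasurableSpace F] [BorelSpace F] {o : OrthonormalBasis (Fin 16) ℝ F}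
variable {h : Bun DB DS DF F π q ev} {ψ : Form DS} {ε G : Form DB}

/-- a form of top degree which is exact on the total space -/
theorem gys_top (hψ : h.Ang o ψ ε) {w : Form DB} (hw : IsDeg 16 w) {η : Form DS}
    (hη : IsDeg 15 η) (he : Form.pull π h.hπ w = η.d) :
    w = -(h.SI o η * ε) - (h.SI o (η * ψ)).d := by
  have h1 := h.gysin1 o hψ he
  rw [sgi_isDeg hw, hη.sg_of_odd (by decide)] at h1
  have h2 : h.SI o (-η) = -h.SI o η := map_neg (h.SIL o) η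
  rw [h2] at h1
  have h3 : (((-1 : ℝ) ^ 16) ^ (16 + 1)) = 1 := by norm_num
  have h4 : ((-1 : ℝ) ^ (16 + 1)) = -1 := by norm_num
  rw [h3, h4, one_smul, neg_one_smul, neg_mul, ← sub_eq_add_neg] at h1
  exact h1

/-- the Euler form is not exact -/
theorem euler_ne (hM : HM DB G) (hψ : h.Ang o ψ ε) {η₀ : Form DS}
    (h0 : Form.pull π h.hπ (G ^ 2) = η₀.d) (γ : Form DB) : ε ≠ γ.d := by
  intro hγ
  have hG : IsDeg 16 (G ^ 2) := hM.deg.pow 2
  have h1 : Form.pull π h.hπ (G ^ 2) = (part 15 η₀).d := by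
    rw [← Form.part_succ_d, ← h0]
    exact (hG.pull π h.hπ).symm
  have h2 := gys_top hψ hG (Form.isDeg_part 15 η₀) h1
  have h3 : (h.SI o (part 15 η₀)).d = 0 := by
    have h4 := h.SI_d o (part 15 η₀)
    rw [← h1, h.SI_pull_zero o (by omega)] at h4
    exact (smul_eq_zero.1 h4.symm).resolve_left (pow_ne_zero _ (by norm_num))
  obtain ⟨c, hc⟩ := hM.h0 _ (h.isDeg_SI o (Form.isDeg_part 15 η₀) (by omega)) h3
  refine hM.ne (-(c • γ) - h.SI o (part 15 η₀ * ψ)) ?_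
  rw [Form.d_sub, Form.d_neg, Form.d_smul, ← hγ]
  rw [hc, smul_mul_assoc, one_mul] at h2
  exact h2

/-- the fibre integral of a closed form of degree 15 vanishes -/
theorem SI_fifteen (hM : HM DB G) (hψ : h.Ang o ψ ε) {η₀ : Form DS}
    (h0 : Form.pull π h.hπ (G ^ 2) = η₀.d) {w : Form DS} (hw : IsDeg 15 w) (hd : w.d = 0) :
    h.SI o w = 0 := by
  obtain ⟨c, hc⟩ := hM.h0 _ (h.isDeg_SI o hw (by omega)) (h.SI_closed o hd)
  have h1 : Form.pull π h.hπ (c • ε) = (w - c • ψ).d := by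
    rw [Form.d_sub, hd, Form.d_smul, hψ.d, pull_smul, smul_neg, zero_sub, neg_neg]
  have h2 := gys_top hψ (hψ.dege.smul c) (hw.sub (hψ.deg.smul c)) h1
  rw [h.SI_sub o, h.SI_smul o, hψ.one, hc, sub_self, zero_mul, neg_zero, zero_sub] at h2
  by_cases h3 : c = 0
  · rw [hc, h3, zero_smul]
  · refine absurd ?_ (euler_ne hM hψ h0 (-(c⁻¹ • h.SI o ((w - c • ψ) * ψ))))
    rw [Form.d_neg, Form.d_smul, ← smul_neg, ← h2, smul_smul, inv_mul_cancel₀ h3, one_smul]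

/-- closed forms whose fibre integral is a multiple of a given class -/
theorem one_of (hM : HM DB G) (hψ : h.Ang o ψ ε) {j : ℕ} (hj : 2 ≤ j) {g : Form DB}
    (hg : IsDeg j g) (hgd : g.d = 0) {w : Form DS} (hw : IsDeg (15 + j) w) (hd : w.d = 0) {r : ℝ}
    {γ : Form DB} (hs : h.SI o w = r • g + γ.d) :
    ∃ κ : Form DS, w = r • (ψ * Form.pull π h.hπ g) + κ.d := by
  have h1 : (ψ * Form.pull π h.hπ g).d = 0 := by
    rw [Form.d_mul, ← Form.pull_d, hgd, pull_zero, mul_zero, add_zero, hψ.d, neg_mul, ← pull_mul,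
      hM.dim (16 + j) (by omega) _ (hψ.dege.mul hg), pull_zero, neg_zero]
  have h2 : IsDeg (15 + j) (ψ * Form.pull π h.hπ g) := hψ.deg.mul (hg.pull π h.hπ)
  obtain ⟨a, κ, -, k2, k3, -⟩ := Tube.gysin_exact o h hψ (by omega)
    (σ := w - r • (ψ * Form.pull π h.hπ g))
    (by rw [Form.d_sub, Form.d_smul, hd, h1, smul_zero, sub_zero]) (hw.sub (h2.smul r)) (η := γ)
    (by rw [h.SI_sub o, h.SI_smul o, h.SI_mul_π o, hψ.one, one_mul, hs, add_sub_cancel_left])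
  rw [hM.dim _ (by omega) a k2, pull_zero, zero_add] at k3
  exact ⟨κ, by rw [← k3, add_sub_cancel]⟩

/-- **the cohomology of the total space** -/
theorem formal (hM : HM DB G) (hψ : h.Ang o ψ ε) {η₀ : Form DS}
    (h0 : Form.pull π h.hπ (G ^ 2) = η₀.d) : Alg.HU DS := by
  have low : ∀ k : ℕ, k ≤ 15 → ∀ w : Form DS, IsDeg k w → w.d = 0 →
      ∃ (a : Form DB) (κ : Form DS), a.d = 0 ∧ IsDeg k a ∧ w = Form.pull π h.hπ a + κ.d ∧
        (k = 0 → κ = 0) := by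
    intro k hk w hw hd
    have h1 : h.SI o w = 0 := by
      rcases hk.eq_or_lt with rfl | h2
      · exact SI_fifteen hM hψ h0 hw hd
      · exact h.SI_eq_zero o hw (by omega)
    obtain ⟨a, κ, k1, k2, k3, -, k4⟩ := h.gysin2 o hψ (by omega) hd h1 hw
    exact ⟨a, κ, k1, k2, k3, k4⟩
  refine ⟨fun w hw hd => ?_, fun k k0 k8 k23 k31 w hw hd => ?_, fun k hk => ?_⟩
  · obtain ⟨a, κ, k1, k2, k3, k4⟩ := low 0 (by omega) w hw hd
    obtain ⟨r, hr⟩ := hM.h0 a k2 k1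
    exact ⟨r, by rw [k3, k4 rfl, hr, pull_smul, pull_one, Form.d_zero, add_zero]⟩
  · by_cases h15 : k ≤ 15
    · obtain ⟨a, κ, k1, k2, k3, -⟩ := low k h15 w hw hd
      obtain ⟨γ, hγ⟩ := hM.ex k k0 k8 (by omega) a k2 k1
      exact ⟨Form.pull π h.hπ γ + κ, by rw [k3, hγ, Form.pull_d, Form.d_add]⟩
    · obtain ⟨j, rfl⟩ : ∃ j, k = 15 + j := ⟨k - 15, by omega⟩
      have h1 : IsDeg j (h.SI o w) := h.isDeg_SI o hw (by omega)
      obtain ⟨γ, hγ⟩ : ∃ γ : Form DB, h.SI o w = γ.d := by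
        by_cases h2 : j < 16
        · exact hM.ex j (by omega) (by omega) h2 _ h1 (h.SI_closed o hd)
        · exact ⟨0, by rw [hM.dim j (by omega) _ h1, Form.d_zero]⟩
      obtain ⟨a, κ, k1, k2, k3, -⟩ := Tube.gysin_exact o h hψ (by omega) hd hw hγ
      by_cases h3 : j = 1
      · subst h3
        obtain ⟨r, β, hr⟩ := hM.h16 a k2 k1
        refine ⟨r • η₀ + Form.pull π h.hπ β + κ, ?_⟩
        rw [k3, hr, pull_add, pull_smul, h0, Form.pull_d, Form.d_add, Form.d_add, Form.d_smul]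
      · exact ⟨κ, by rw [k3, hM.dim _ (by omega) a k2, pull_zero, zero_add]⟩
  · rcases hk with rfl | rfl | rfl
    · refine ⟨Form.pull π h.hπ G, fun w hw hd => ?_⟩
      obtain ⟨a, κ, k1, k2, k3, -⟩ := low 8 (by omega) w hw hd
      obtain ⟨r, γ, hγ⟩ := hM.h8 a k2 k1
      exact ⟨r, Form.pull π h.hπ γ + κ, by
        rw [k3, hγ, pull_add, pull_smul, Form.pull_d, Form.d_add, add_assoc]⟩
    · refine ⟨ψ * Form.pull π h.hπ G, fun w hw hd => ?_⟩
      obtain ⟨r, γ, hγ⟩ := hM.h8 _ (h.isDeg_SI o hw (by omega)) (h.SI_closed o hd)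
      exact ⟨r, one_of hM hψ (j := 8) (by omega) hM.deg hM.d hw hd hγ⟩
    · refine ⟨ψ * Form.pull π h.hπ (G ^ 2), fun w hw hd => ?_⟩
      obtain ⟨r, γ, hγ⟩ := hM.h16 _ (h.isDeg_SI o hw (by omega)) (h.SI_closed o hd)
      refine ⟨r, one_of hM hψ (j := 16) (by omega) (hM.deg.pow 2) ?_ hw hd hγ⟩
      rw [sq, Form.d_mul, hM.d, zero_mul, mul_zero, add_zero]

end Vale.Agent.P231Z.HU
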