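import Vale.Agent.P231.WG.FrameFr
import Vale.Agent.P231.X3.Frame
import Vale.Agent.P231.WR.Ext

/-!
# P231, Cayley case: a Blaschke manifold whose cut loci have links of positive dimension is
orientable
-/

set_option maxSynthPendingDepth 3
set_option linter.unusedSectionVars false
set_option linter.unusedVariables false

open Bundle Manifold Set Filter Module
open scoped ContDiff Manifold Topology

namespace Vale.Agent.P231Z.HU

noncomputable section

open Vale.Agent.P234 Vale.Agent.P231 Vale.Agent.P231.W Vale.Agent.P231.WR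

variable {E : Type*} [NormedAddCommGroup E] [NormedSpace ℝ E]
  {M : Type*} [MetricSpace M] [ChartedSpace E M]
  [RiemannianBundle (fun x : M => TangentSpace 𝓘(ℝ, E) x)]
  {e : ∀ x : M, TangentSpace 𝓘(ℝ, E) x → M}
  [FiniteDimensional ℝ E] [IsManifold 𝓘(ℝ, E) ∞ M]
  [IsContMDiffRiemannianBundle 𝓘(ℝ, E) ∞ E (fun x : M => TangentSpace 𝓘(ℝ, E) x)]
  [CompactSpace M] [ConnectedSpace M] [IsRiemannianManifold 𝓘(ℝ, E) M]

/-- the determinant of the matrix of the inner products of two families of tangent vectors -/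
def gd {N : ℕ} (x : M) (P Q : Fin N → E) : ℝ :=
  Matrix.det (Matrix.of fun i j => ip x (P i) (Q j))

/-- a family of tangent vectors which reproduces every vector -/
def Par {N : ℕ} (x : M) (Q : Fin N → E) : Prop := ∀ a : E, ∑ j, ip x (Q j) a • Q j = a

theorem gd_ne {N : ℕ} {x : M} {P Q : Fin N → E} (hP : LinearIndependent ℝ P) (hQ : Par x Q) :
    gd x P Q ≠ 0 := by
  intro h
  obtain ⟨v, hv, h1⟩ := Matrix.exists_vecMul_eq_zero_iff.2 h
  refine hv (funext (Fintype.linearIndependent_iff.1 hP v ?_))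
  rw [← hQ (∑ i, v i • P i)]
  refine Finset.sum_eq_zero fun j _ => ?_
  have h2 : ip x (Q j) (∑ i, v i • P i) = 0 := by
    have h3 := congrFun h1 j
    rw [Matrix.vecMul, dotProduct] at h3
    rw [ip_sum_right]
    refine Eq.trans (Finset.sum_congr rfl fun i _ => ?_) h3
    rw [ip_smul_right', WR.ip_comm']
    rfl
  rw [h2, zero_smul]

theorem gd_comm {N : ℕ} (x : M) (P Q : Fin N → E) : gd x P Q = gd x Q P := by
  rw [gd, gd, ← Matrix.det_transpose]
  refine congrArg Matrix.det ?_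
  ext i j
  exact WR.ip_comm' x _ _

/-- the determinants are multiplicative -/
theorem gd_mul {N : ℕ} {x : M} {Q : Fin N → E} (hQ : Par x Q) (P R : Fin N → E) :
    gd x P R = gd x P Q * gd x Q R := by
  rw [gd, gd, gd, ← Matrix.det_mul]
  refine congrArg Matrix.det ?_
  ext i j
  rw [Matrix.mul_apply, Matrix.of_apply]
  conv_lhs => rw [← hQ (R j), ip_sum_right]
  refine Finset.sum_congr rfl fun k _ => ?_
  rw [ip_smul_right', Matrix.of_apply, Matrix.of_apply, mul_comm]

/-- change of the second family by a matrix -/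
theorem gd_lin {N : ℕ} (x : M) (P Q : Fin N → E) (A : Matrix (Fin N) (Fin N) ℝ) :
    gd x P (fun j => ∑ k, A k j • Q k) = gd x P Q * A.det := by
  rw [gd, gd, ← Matrix.det_mul]
  refine congrArg Matrix.det ?_
  ext i j
  rw [Matrix.mul_apply, Matrix.of_apply, ip_sum_right]
  refine Finset.sum_congr rfl fun k _ => ?_
  rw [ip_smul_right', Matrix.of_apply, mul_comm]

theorem Par.on {N : ℕ} (hN : finrank ℝ E = N) {x : M} {Q : Fin N → E} (h1 : Par x Q)
    (i j : Fin N) : ip x (Q i) (Q j) = if i = j then 1 else 0 := by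
  have h2 : ⊤ ≤ Submodule.span ℝ (Set.range Q) := fun a _ =>
    (Submodule.mem_span_range_iff_exists_fun ℝ).2 ⟨_, h1 a⟩
  have h3 : LinearIndependent ℝ Q :=
    linearIndependent_of_top_le_span_of_card_eq_finrank h2 (by rw [Fintype.card_fin, hN])
  have h4 := Fintype.linearIndependent_iff.1 h3
    (fun k => ip x (Q k) (Q j) - if k = j then 1 else 0) (by
      simp only [sub_smul, Finset.sum_sub_distrib]
      rw [h1 (Q j)]
      simp) i
  exact sub_eq_zero.1 h4

/-- local orthonormal frames -/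
theorem exists_local {N : ℕ} (hN : finrank ℝ E = N) (x₀ : M) :
    ∃ g : Fin N → ∀ x : M, TangentSpace 𝓘(ℝ, E) x, ∀ x ∈ (chartAt E x₀).source,
      (∀ i, X3.SecAt (g i) x) ∧ Par (E := E) x (fun j => (g j x : E)) ∧
      ∀ i j, ip (E := E) x (g i x : E) (g j x : E) = if i = j then 1 else 0 := by
  obtain ⟨g, hg⟩ := X3.exists_local_orthonormal (E := E) x₀
  let σ : Fin N ≃ Fin (finrank ℝ E) := finCongr hN.symm
  refine ⟨fun i => g (σ i), fun x hx => ?_⟩
  have h1 : Par (E := E) x (fun j => (g (σ j) x : E)) := fun a =>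
    (σ.sum_comp (fun j => ip (E := E) x (g j x : E) a • (g j x : E))).trans ((hg x hx).2 a)
  refine ⟨fun i => (hg x hx).1 (σ i), h1, fun i j => ?_⟩
  exact Par.on hN h1 i j

/-- two bases have a nonzero determinant -/
theorem gd_ne' {N : ℕ} (hN : finrank ℝ E = N) {x : M} {P R : Fin N → E}
    (hP : LinearIndependent ℝ P) (hR : LinearIndependent ℝ R) : gd x P R ≠ 0 := by
  obtain ⟨g, hg⟩ := exists_local hN x
  have h1 := (hg x (mem_chart_source E x)).2.1
  rw [gd_mul h1]
  exact mul_ne_zero (gd_ne hP h1) ((gd_comm x _ R).trans_ne (gd_ne hR h1))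

/-- a field of frames, not continuous, which defines an orientation -/
structure Ori {N : ℕ} (P : M → Fin N → E) : Prop where
  li : ∀ x, LinearIndependent ℝ (P x)
  loc : ∀ (x₀ : M) (g : Fin N → ∀ x : M, TangentSpace 𝓘(ℝ, E) x),
    (∀ᶠ x in 𝓝 x₀, (∀ i, X3.SecAt (g i) x) ∧ Par (E := E) x (fun j => (g j x : E))) →
    ∀ᶠ x in 𝓝 x₀, 0 < gd x (P x) (fun j => (g j x : E)) * gd x₀ (P x₀) (fun j => (g j x₀ : E))

/-- **the sign of a smooth frame along a plot is locally constant** -/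
theorem Ori.plot {N : ℕ} (hN : finrank ℝ E = N) {P : M → Fin N → E} (hP : Ori P)
    {E' : Type} [NormedAddCommGroup E'] [NormedSpace ℝ E'] [FiniteDimensional ℝ E']
    {u : E' → M} {x : E'} (hu : (dM E M).At u x) {c : Fin N → E' → E}
    (hc : ∀ i, (dTM E M).At (fun s => tb (u s) (c i s)) x)
    (hli : LinearIndependent ℝ (fun i => c i x)) :
    ∀ᶠ s in 𝓝 x, 0 < gd (u s) (P (u s)) (fun i => c i s) * gd (u x) (P (u x)) (fun i => c i x) := by
  obtain ⟨g, hg⟩ := exists_local hN (u x)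
  have hu' : ContMDiffAt 𝓘(ℝ, E') 𝓘(ℝ, E) ∞ u x :=
    (show ∀ᶠ s in 𝓝 x, ContMDiffAt 𝓘(ℝ, E') 𝓘(ℝ, E) ∞ u s from hu).self_of_nhds
  have hx : u x ∈ (chartAt E (u x)).source := mem_chart_source E (u x)
  have hV : ∀ᶠ y in 𝓝 (u x), y ∈ (chartAt E (u x)).source :=
    (chartAt E (u x)).open_source.mem_nhds hx
  have h1 := hu'.continuousAt.eventually
    (hP.loc (u x) g (hV.mono fun y hy => ⟨(hg y hy).1, (hg y hy).2.1⟩))
  let τ : E' → ℝ := fun s => gd (E := E) (u s) (fun j => (g j (u s) : E)) (fun i => c i s)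
  have h2 : ContinuousAt τ x := by
    have h3 : ∀ j, H775.SmV (E := E) u (fun z => g j (u z)) x := fun j =>
      ContMDiffAt.comp x ((hg _ hx).1 j) hu'
    have h4 : ∀ i, H775.SmV (E := E) u (fun z => c i z) x := fun i =>
      (show ∀ᶠ s in 𝓝 x, H775.SmV (E := E) u (fun z => c i z) s from hc i).self_of_nhds
    have h5 : ContinuousAt (fun z : E' => (Matrix.of fun i j =>
        ip (E := E) (u z) (g i (u z) : E) (c j z) : Matrix (Fin N) (Fin N) ℝ)) x :=
      continuousAt_pi.2 fun i => continuousAt_pi.2 fun j => ((h3 i).inner (h4 j)).continuousAt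
    exact ContinuousAt.comp (f := fun z : E' => (Matrix.of fun i j =>
        ip (E := E) (u z) (g i (u z) : E) (c j z) : Matrix (Fin N) (Fin N) ℝ))
      (continuous_id.matrix_det).continuousAt h5
  have h3 : τ x ≠ 0 := (gd_comm (u x) _ _).trans_ne (gd_ne hli (hg _ hx).2.1)
  have h4 : ∀ᶠ s in 𝓝 x, 0 < τ s * τ x :=
    (h2.mul continuousAt_const).eventually (lt_mem_nhds (mul_self_pos.2 h3))
  filter_upwards [hu'.continuousAt.eventually hV, h1, h4] with s h5 h6 h7
  rw [gd_mul (hg _ h5).2.1, gd_mul (hg _ hx).2.1 (P (u x)), mul_mul_mul_comm]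
  exact mul_pos h6 h7

variable (F : Facts e) {D : ℝ} (hD : 0 < D) (hB : InjGE e D) (hdiam : ∀ p q : M, dist p q ≤ D)

include hB in
theorem dist_ef (p : M) {ξ : Eu E} (hξ : ‖ξ‖ ≤ D) : dist p (ef e p ξ) = ‖ξ‖ := by
  have h1 : nm p (fr (E := E) p ξ) = ‖ξ‖ := nm_fr p ξ
  have h2 := hB p (fr (E := E) p ξ : E) (h1.trans_le hξ)
  exact h2.trans h1

include F hD hB hdiam in
/-- the minimal geodesics between two points form a connected family -/
theorem preconn_fibre (hP : ∀ x y : M, dist x y = D → 2 ≤ finrank ℝ (H775.Pl e D x y))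
    (p x : M) : IsPreconnected {ξ : Eu E | ‖ξ‖ ≤ D ∧ ef e p ξ = x} := by
  rcases (hdiam p x).lt_or_eq with h | h
  · refine Set.Subsingleton.isPreconnected fun ξ hξ η hη => ?_
    have h1 : ∀ ζ : Eu E, ‖ζ‖ ≤ D → ef e p ζ = x → ζ ∈ Metric.ball (0 : Eu E) D := by
      intro ζ h2 h3
      rw [mem_ball_zero_iff, ← dist_ef hB p h2, h3]
      exact h
    exact area_injOn F hB p (h1 ξ hξ.1 hξ.2) (h1 η hη.1 hη.2) (hξ.2.trans hη.2.symm)
  · have hx : dist x p = D := by rw [dist_comm, h]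
    let L : Eu E ≃ₗ[ℝ] TangentSpace 𝓘(ℝ, E) p := (fr (E := E) p).toLinearEquiv
    have hL : ∀ ξ, ‖L ξ‖ = ‖ξ‖ := fun ξ => nm_fr p ξ
    let S : Submodule ℝ (Eu E) := (H775.Pl e D x p).map (L.symm : _ →ₗ[ℝ] Eu E)
    have hS : finrank ℝ S = finrank ℝ (H775.Pl e D x p) := LinearEquiv.finrank_map_eq _ _
    have hmem : ∀ ξ, ξ ∈ S ↔ L ξ ∈ H775.Pl e D x p := fun ξ => by
      rw [Submodule.mem_map_equiv, LinearEquiv.symm_symm]
    have hr : 1 < Module.rank ℝ S := by
      rw [← finrank_eq_rank, hS]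
      exact_mod_cast hP x p hx
    have h1 := (isPreconnected_sphere hr (0 : S) D).image Subtype.val
      continuous_subtype_val.continuousOn
    refine Eq.subst ?_ h1
    ext ξ
    constructor
    · rintro ⟨η, h2, rfl⟩
      have h3 : ‖(η : Eu E)‖ = D := mem_sphere_zero_iff_norm.1 h2
      refine ⟨h3.le, ?_⟩
      have h4 : D⁻¹ • L η ∈ Lk e D x p := by
        refine (H775.mem_Lk_iff F hD hB hdiam hx).2 ⟨?_, Submodule.smul_mem _ _ ((hmem _).1 η.2)⟩
        rw [norm_smul, hL, h3, norm_inv, Real.norm_of_nonneg hD.le, inv_mul_cancel₀ hD.ne']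
      have h5 := h4.2
      rw [smul_smul, mul_inv_cancel₀ hD.ne', one_smul] at h5
      exact h5
    · rintro ⟨h2, h3⟩
      have h4 : ‖ξ‖ = D := by rw [← dist_ef hB p h2, h3, h]
      have h5 : D⁻¹ • L ξ ∈ Lk e D x p := by
        refine ⟨?_, ?_⟩
        · rw [norm_smul, hL, h4, norm_inv, Real.norm_of_nonneg hD.le, inv_mul_cancel₀ hD.ne']
        · rw [smul_smul, mul_inv_cancel₀ hD.ne', one_smul]
          exact h3
      have h6 := Submodule.smul_mem _ D (H775.Lk_subset_Pl D x p h5)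
      rw [smul_smul, mul_inv_cancel₀ hD.ne', one_smul] at h6
      exact ⟨⟨ξ, (hmem ξ).2 h6⟩, mem_sphere_zero_iff_norm.2 h4, rfl⟩

/-- a continuous function without zero on a connected set has a constant sign -/
theorem sign_const {X : Type*} [TopologicalSpace X] {K : Set X} (hK : IsPreconnected K)
    {f : X → ℝ} (hf : ContinuousOn f K) (h0 : ∀ x ∈ K, f x ≠ 0) {a b : X} (ha : a ∈ K)
    (hb : b ∈ K) : 0 < f a * f b := by
  by_contra h
  rcases le_total (f a) (f b) with h1 | h1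
  · have h2 : (0 : ℝ) ∈ Icc (f a) (f b) := by
      constructor
      · by_contra h3
        exact h (mul_pos (not_le.1 h3) ((not_le.1 h3).trans_le h1))
      · by_contra h3
        exact h (mul_pos_of_neg_of_neg (h1.trans_lt (not_le.1 h3)) (not_le.1 h3))
    obtain ⟨x, hx, h3⟩ := hK.intermediate_value ha hb hf h2
    exact h0 x hx h3
  · have h2 : (0 : ℝ) ∈ Icc (f b) (f a) := by
      constructor
      · by_contra h3
        exact h (mul_pos ((not_le.1 h3).trans_le h1) (not_le.1 h3))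
      · by_contra h3
        exact h (mul_pos_of_neg_of_neg (not_le.1 h3) (h1.trans_lt (not_le.1 h3)))
    obtain ⟨x, hx, h3⟩ := hK.intermediate_value hb ha hf h2
    exact h0 x hx h3

include F hD hB hdiam in
/-- **the manifold is orientable** -/
theorem exists_ori (hP : ∀ x y : M, dist x y = D → 2 ≤ finrank ℝ (H775.Pl e D x y)) {N : ℕ}
    (hN : finrank ℝ E = N) : ∃ P : M → Fin N → E, Ori P := by
  obtain ⟨p⟩ : Nonempty M := inferInstance
  obtain ⟨X⟩ := WG.nonempty_fr F hD hB p (D + 1)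
  let u : Basis (Fin N) ℝ (Eu E) := finBasisOfFinrankEq ℝ (Eu E) (by
    rw [finrank_euclideanSpace, Fintype.card_fin, hN])
  have hex : ∀ x : M, ∃ ξ : Eu E, ‖ξ‖ ≤ D ∧ ef e p ξ = x := by
    intro x
    obtain ⟨v, h1, h2⟩ := F.hopfRinow p x
    have h3 : fr (E := E) p ((fr (E := E) p).symm v) = v := (fr (E := E) p).apply_symm_apply v
    refine ⟨(fr (E := E) p).symm v, ?_, (congrArg (e p) h3).trans h1⟩
    rw [← nm_fr p, h3]
    exact h2.symm.le.trans (hdiam p x)
  choose ξ hξ hξx using hex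
  have hli : ∀ η : Eu E, ‖η‖ < D + 1 → LinearIndependent ℝ (fun i => X.B η (u i)) := fun η hη =>
    u.linearIndependent.map' (X.B η : Eu E →ₗ[ℝ] E) (LinearMap.ker_eq_bot.2 (X.inj η hη))
  have hDR : ∀ {η : Eu E}, ‖η‖ ≤ D → ‖η‖ < D + 1 := fun h => h.trans_lt (lt_add_one D)
  refine ⟨fun x i => X.B (ξ x) (u i), fun x => hli _ (hDR (hξ x)), fun x₀ g hg => ?_⟩
  obtain ⟨V, hV, hVo, hx₀⟩ := eventually_nhds_iff.1 hg
  have hef : Continuous (ef e p) := area_continuous_ef F.isExp p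
  let δ : Eu E → ℝ := fun η => gd (ef e p η) (fun i => X.B η (u i)) (fun j => (g j (ef e p η) : E))
  let O : Set (Eu E) := {η | ‖η‖ < D + 1} ∩ ef e p ⁻¹' V
  have hO : IsOpen O := (isOpen_lt continuous_norm continuous_const).inter (hVo.preimage hef)
  have hδ : ContinuousOn δ O := by
    intro η hη
    refine ContinuousAt.continuousWithinAt ?_
    have h1 : ∀ i, H775.SmV (E := E) (ef e p) (fun z => X.B z (u i)) η := fun i =>
      H775.SmV.comp (h := fun z : Eu E => (z, u i)) (X.sm η hη.1 (u i))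
        (contDiffAt_id.prodMk contDiffAt_const)
    have h2 : ContMDiffAt 𝓘(ℝ, Eu E) 𝓘(ℝ, E) ∞ (ef e p) η :=
      (H775.SmV.comp (h := fun z : Eu E => (z, (0 : Eu E))) (X.sm η hη.1 0)
        (contDiffAt_id.prodMk contDiffAt_const)).base
    have h3 : ∀ j, H775.SmV (E := E) (ef e p) (fun z => g j (ef e p z)) η := fun j =>
      ContMDiffAt.comp η ((hV _ hη.2).1 j) h2
    have h4 : ContinuousAt (fun z : Eu E => (Matrix.of fun i j =>
        ip (ef e p z) (X.B z (u i)) (g j (ef e p z) : E) : Matrix (Fin N) (Fin N) ℝ)) η :=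
      continuousAt_pi.2 fun i => continuousAt_pi.2 fun j => ((h1 i).inner (h3 j)).continuousAt
    exact ContinuousAt.comp (f := fun z : Eu E => (Matrix.of fun i j =>
        ip (ef e p z) (X.B z (u i)) (g j (ef e p z) : E) : Matrix (Fin N) (Fin N) ℝ))
      (continuous_id.matrix_det).continuousAt h4
  have hδ0 : ∀ η ∈ O, δ η ≠ 0 := fun η hη => gd_ne (hli η hη.1) (hV _ hη.2).2
  have hδx : ∀ x, δ (ξ x) = gd x (fun i => X.B (ξ x) (u i)) (fun j => (g j x : E)) := fun x =>
    congrArg (fun y : M => gd y (fun i => X.B (ξ x) (u i)) (fun j => (g j y : E))) (hξx x)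
  have hKO : {η : Eu E | ‖η‖ ≤ D ∧ ef e p η = x₀} ⊆ O := fun η hη =>
    ⟨hDR hη.1, by
      change ef e p η ∈ V
      rw [hη.2]
      exact hx₀⟩
  let W : Set (Eu E) := O ∩ (fun η => δ η * δ (ξ x₀)) ⁻¹' Ioi 0
  have hW : IsOpen W := (hδ.mul continuousOn_const).isOpen_inter_preimage hO isOpen_Ioi
  have hC : IsClosed (ef e p '' (Metric.closedBall (0 : Eu E) D \ W)) :=
    (((isCompact_closedBall (0 : Eu E) D).diff hW).image hef).isClosed
  have hx : x₀ ∉ ef e p '' (Metric.closedBall (0 : Eu E) D \ W) := by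
    rintro ⟨η, ⟨h1, h2⟩, h3⟩
    have h4 : η ∈ {η : Eu E | ‖η‖ ≤ D ∧ ef e p η = x₀} := ⟨mem_closedBall_zero_iff.1 h1, h3⟩
    exact h2 ⟨hKO h4, sign_const (preconn_fibre F hD hB hdiam hP p x₀) (hδ.mono hKO)
      (fun z hz => hδ0 z (hKO hz)) h4 ⟨hξ x₀, hξx x₀⟩⟩
  filter_upwards [hC.isOpen_compl.mem_nhds hx] with x hx'
  have h1 : ξ x ∈ W := by
    by_contra h2
    exact hx' ⟨ξ x, ⟨mem_closedBall_zero_iff.2 (hξ x), h2⟩, hξx x⟩
  have h2 : 0 < δ (ξ x) * δ (ξ x₀) := h1.2
  rw [hδx, hδx] at h2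
  exact h2

end

end Vale.Agent.P231Z.HU
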